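import Crest.Agent.IMM5.Paths

/-! Prefix products of a sequence of matrices, padding and splitting into blocks (helper for S0505). -/

namespace Crest.Agent.IMM5

open Matrix

variable {R : Type*} [CommSemiring R] {n : ℕ}

/-- Sum over paths with prescribed ends = sum over the interior nodes. -/
theorem sum_ends {α M : Type*} [Fintype α] [DecidableEq α] [AddCommMonoid M] (ρ : ℕ) (i j : α)
    (F : (Fin (ρ + 2) → α) → M) :
    (∑ f : Fin (ρ + 2) → α, if f 0 = i ∧ f (Fin.last (ρ + 1)) = j then F f else 0) =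
      ∑ g : Fin ρ → α, F (Fin.cons i (Fin.snoc g j)) := by
  rw [← Finset.sum_filter]
  refine Finset.sum_nbij' (fun f => Fin.init (Fin.tail f)) (fun g => Fin.cons i (Fin.snoc g j))
    ?_ ?_ ?_ ?_ ?_
  · intro f _; exact Finset.mem_univ _
  · intro g _
    simp only [Finset.mem_filter, Finset.mem_univ, true_and, Fin.cons_zero]
    rw [← Fin.succ_last, Fin.cons_succ, Fin.snoc_last]
  · intro f hf
    simp only [Finset.mem_filter, Finset.mem_univ, true_and] at hf
    obtain ⟨h0, h1⟩ := hf
    have h2 : Fin.tail f (Fin.last ρ) = j := by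
      rw [← h1, ← Fin.succ_last]; rfl
    rw [← h2, Fin.snoc_init_self, ← h0, Fin.cons_self_tail]
  · intro g _
    simp
  · intro f hf
    simp only [Finset.mem_filter, Finset.mem_univ, true_and] at hf
    obtain ⟨h0, h1⟩ := hf
    have h2 : Fin.tail f (Fin.last ρ) = j := by
      rw [← h1, ← Fin.succ_last]; rfl
    rw [← h2, Fin.snoc_init_self, ← h0, Fin.cons_self_tail]

/-- Product of the first `m` matrices of a sequence. -/
def PA (A : ℕ → Matrix (Fin n) (Fin n) R) (m : ℕ) : Matrix (Fin n) (Fin n) R :=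
  (List.ofFn fun k : Fin m => A k).prod

theorem PA_succ (A : ℕ → Matrix (Fin n) (Fin n) R) (m : ℕ) : PA A (m + 1) = PA A m * A m := by
  unfold PA
  rw [List.ofFn_succ', List.prod_concat]
  simp

theorem PA_of_le (A : ℕ → Matrix (Fin n) (Fin n) R) (N : ℕ) (hA : ∀ k, N ≤ k → A k = 1)
    (m : ℕ) (hm : N ≤ m) : PA A m = PA A N := by
  induction m, hm using Nat.le_induction with
  | base => rfl
  | succ m hm ih => rw [PA_succ, hA m hm, mul_one, ih]

/-- The product of a block of `t` consecutive matrices. -/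
def Blk (A : ℕ → Matrix (Fin n) (Fin n) R) (t c : ℕ) : Matrix (Fin n) (Fin n) R :=
  (List.ofFn fun a : Fin t => A (c * t + a)).prod

theorem PA_mul (A : ℕ → Matrix (Fin n) (Fin n) R) (r t : ℕ) :
    PA A (r * t) = (List.ofFn fun c : Fin r => Blk A t c).prod := by
  unfold PA Blk
  rw [List.ofFn_mul, List.prod_flatten, List.map_ofFn]
  rfl

end Crest.Agent.IMM5
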