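import Crest.Prelude.Def_SPSPS

/-! Reindexing a depth-five circuit along bijections of its index types (helper for S0505). -/

namespace Crest.Agent.IMM5

open Crest.ArithCircuit

variable {K ι L B P S R L' B' P' S' R' : Type*}

/-- Transport a circuit along bijections of the five index types. -/
def reindex (eL : L ≃ L') (eB : B ≃ B') (eP : P ≃ P') (eS : S ≃ S') (eR : R ≃ R')
    (C : SPSPS K ι L B P S R) : SPSPS K ι L' B' P' S' R' where
  leaf l := C.leaf (eL.symm l)
  inB b := (C.inB (eB.symm b)).map eL.toEmbedding
  coefB b l := C.coefB (eB.symm b) (eL.symm l)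
  inP p := (C.inP (eP.symm p)).map eB
  inS s := (C.inS (eS.symm s)).map eP.toEmbedding
  coefS s p := C.coefS (eS.symm s) (eP.symm p)
  inR r := (C.inR (eR.symm r)).map eS
  inOut := C.inOut.map eR.toEmbedding
  coefOut r := C.coefOut (eR.symm r)

variable [CommSemiring K]
variable (eL : L ≃ L') (eB : B ≃ B') (eP : P ≃ P') (eS : S ≃ S') (eR : R ≃ R')
  (C : SPSPS K ι L B P S R)

theorem reindex_leafVal (l : L') :
    (reindex eL eB eP eS eR C).leafVal l = C.leafVal (eL.symm l) := rfl

theorem reindex_valB (b : B') :
    (reindex eL eB eP eS eR C).valB b = C.valB (eB.symm b) := by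
  unfold SPSPS.valB
  simp only [reindex_leafVal]
  simp [reindex, Finset.sum_map]

theorem reindex_valP (p : P') :
    (reindex eL eB eP eS eR C).valP p = C.valP (eP.symm p) := by
  unfold SPSPS.valP
  have h : (reindex eL eB eP eS eR C).valB = fun b => C.valB (eB.symm b) :=
    funext (reindex_valB eL eB eP eS eR C)
  rw [h]
  simp [reindex, Multiset.map_map, Function.comp_def]

theorem reindex_valS (s : S') :
    (reindex eL eB eP eS eR C).valS s = C.valS (eS.symm s) := by
  unfold SPSPS.valS
  simp only [reindex_valP]
  simp [reindex, Finset.sum_map]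

theorem reindex_valR (r : R') :
    (reindex eL eB eP eS eR C).valR r = C.valR (eR.symm r) := by
  unfold SPSPS.valR
  have h : (reindex eL eB eP eS eR C).valS = fun b => C.valS (eS.symm b) :=
    funext (reindex_valS eL eB eP eS eR C)
  rw [h]
  simp [reindex, Multiset.map_map, Function.comp_def]

theorem reindex_output :
    (reindex eL eB eP eS eR C).output = C.output := by
  unfold SPSPS.output
  simp only [reindex_valR]
  simp [reindex, Finset.sum_map]

theorem reindex_leafDeg (l : L') :
    (reindex eL eB eP eS eR C).leafDeg l = C.leafDeg (eL.symm l) := rfl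

theorem reindex_degB (b : B') :
    (reindex eL eB eP eS eR C).degB b = C.degB (eB.symm b) := by
  unfold SPSPS.degB
  have h : (reindex eL eB eP eS eR C).leafDeg = fun b => C.leafDeg (eL.symm b) :=
    funext (reindex_leafDeg eL eB eP eS eR C)
  rw [h]
  simp [reindex, Finset.sup_map, Function.comp_def]

theorem reindex_degP (p : P') :
    (reindex eL eB eP eS eR C).degP p = C.degP (eP.symm p) := by
  unfold SPSPS.degP
  have h : (reindex eL eB eP eS eR C).degB = fun b => C.degB (eB.symm b) :=
    funext (reindex_degB eL eB eP eS eR C)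
  rw [h]
  simp [reindex, Multiset.map_map, Function.comp_def]

theorem reindex_degS (s : S') :
    (reindex eL eB eP eS eR C).degS s = C.degS (eS.symm s) := by
  unfold SPSPS.degS
  have h : (reindex eL eB eP eS eR C).degP = fun b => C.degP (eP.symm b) :=
    funext (reindex_degP eL eB eP eS eR C)
  rw [h]
  simp [reindex, Finset.sup_map, Function.comp_def]

theorem reindex_degR (r : R') :
    (reindex eL eB eP eS eR C).degR r = C.degR (eR.symm r) := by
  unfold SPSPS.degR
  have h : (reindex eL eB eP eS eR C).degS = fun b => C.degS (eS.symm b) :=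
    funext (reindex_degS eL eB eP eS eR C)
  rw [h]
  simp [reindex, Multiset.map_map, Function.comp_def]

theorem reindex_degOut :
    (reindex eL eB eP eS eR C).degOut = C.degOut := by
  unfold SPSPS.degOut
  have h : (reindex eL eB eP eS eR C).degR = fun b => C.degR (eR.symm b) :=
    funext (reindex_degR eL eB eP eS eR C)
  rw [h]
  simp [reindex, Finset.sup_map, Function.comp_def]

theorem reindex_isHomogeneous (h : C.IsHomogeneous) :
    (reindex eL eB eP eS eR C).IsHomogeneous := by
  obtain ⟨h1, h2, h3⟩ := h
  refine ⟨?_, ?_, ?_⟩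
  · intro b l hl
    rw [reindex_leafDeg, reindex_degB]
    apply h1
    simpa [reindex] using hl
  · intro s p hp
    rw [reindex_degP, reindex_degS]
    apply h2
    simpa [reindex] using hp
  · intro r hr
    rw [reindex_degR, reindex_degOut]
    apply h3
    simpa [reindex] using hr

/-- Every circuit with finite index types can be re-indexed by initial segments of `ℕ`. -/
theorem exists_fin [Fintype L] [Fintype B] [Fintype P] [Fintype S] [Fintype R]
    (C : SPSPS K ι L B P S R) (h : C.IsHomogeneous) :
    ∃ C' : SPSPS K ι (Fin (Fintype.card L)) (Fin (Fintype.card B)) (Fin (Fintype.card P))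
        (Fin (Fintype.card S)) (Fin (Fintype.card R)),
      C'.IsHomogeneous ∧ C'.output = C.output ∧ C'.size = C.size := by
  classical
  refine ⟨reindex (Fintype.equivFin L) (Fintype.equivFin B) (Fintype.equivFin P)
    (Fintype.equivFin S) (Fintype.equivFin R) C, reindex_isHomogeneous _ _ _ _ _ C h,
    reindex_output _ _ _ _ _ C, ?_⟩
  simp [SPSPS.size]

end Crest.Agent.IMM5
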