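import Crest.Agent.IMM5.Blocks
import Crest.Agent.IMM5.Reindex

/-! The explicit homogeneous depth-five circuit for iterated matrix multiplication (S0505). -/

namespace Crest.Agent.IMM5

open Crest.ArithCircuit MvPolynomial

variable (K : Type*) [CommSemiring K] (n ρ τ : ℕ) [NeZero n]

/-- The padded sequence of variable matrices: identity matrices after the first `n`. -/
noncomputable def Apad (k : ℕ) : Matrix (Fin n) (Fin n) (MvPolynomial (Fin n × Fin n × Fin n) K) :=
  if k < n then varMatrix K n (Fin.ofNat n k) else 1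

/-- The path through the top layer determined by its interior nodes. -/
def hh (g : Fin ρ → Fin n) : Fin (ρ + 2) → Fin n := Fin.cons 0 (Fin.snoc g 0)

/-- The steps of block `c` that correspond to genuine matrices. -/
def realSteps (c : ℕ) : Finset (Fin (τ + 1)) := Finset.univ.filter fun a => c * (τ + 1) + a < n

/-- The circuit. -/
def circ : SPSPS K (Fin n × Fin n × Fin n) (Fin n × Fin n × Fin n) (Fin n × Fin n × Fin n)
    (Fin (ρ + 1) × (Fin (τ + 2) → Fin n)) (Fin (ρ + 1) × Fin n × Fin n) (Fin ρ → Fin n) where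
  leaf l := Sum.inl l
  inB b := {b}
  coefB _ _ := 1
  inP p := (realSteps n τ p.1).val.map fun a : Fin (τ + 1) =>
    (Fin.ofNat n (p.1 * (τ + 1) + a), p.2 a.castSucc, p.2 a.succ)
  inS s := (Finset.univ.filter fun f : Fin (τ + 2) → Fin n =>
      (f 0 = s.2.1 ∧ f (Fin.last (τ + 1)) = s.2.2) ∧
        ∀ a : Fin (τ + 1), n ≤ s.1 * (τ + 1) + a → f a.castSucc = f a.succ).map
    (Function.Embedding.sectR s.1 _)
  coefS _ _ := 1
  inR g := Finset.univ.val.map fun c : Fin (ρ + 1) => (c, hh n ρ g c.castSucc, hh n ρ g c.succ)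
  inOut := Finset.univ
  coefOut _ := 1

theorem circ_valB (b : Fin n × Fin n × Fin n) : (circ K n ρ τ).valB b = X b := by
  simp [SPSPS.valB, SPSPS.leafVal, circ]

theorem circ_valP (p : Fin (ρ + 1) × (Fin (τ + 2) → Fin n)) :
    (circ K n ρ τ).valP p = ∏ a ∈ realSteps n τ p.1,
      X (Fin.ofNat n (p.1 * (τ + 1) + a), p.2 a.castSucc, p.2 a.succ) := by
  have h : (circ K n ρ τ).valB = X := funext (circ_valB K n ρ τ)
  unfold SPSPS.valP
  rw [h]
  simp only [circ, Multiset.map_map]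
  rfl

theorem prod_Apad (c : ℕ) (f : Fin (τ + 2) → Fin n) :
    ∏ a : Fin (τ + 1), Apad K n (c * (τ + 1) + a) (f a.castSucc) (f a.succ) =
      if ∀ a : Fin (τ + 1), n ≤ c * (τ + 1) + a → f a.castSucc = f a.succ then
        ∏ a ∈ realSteps n τ c, X (Fin.ofNat n (c * (τ + 1) + a), f a.castSucc, f a.succ) else 0 := by
  split_ifs with h
  · unfold realSteps
    rw [Finset.prod_filter]
    refine Finset.prod_congr rfl fun a _ => ?_
    unfold Apad
    by_cases ha : c * (τ + 1) + a < n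
    · simp [ha, varMatrix]
    · rw [if_neg ha, if_neg ha, h a (not_lt.mp ha), Matrix.one_apply_eq]
  · simp only [not_forall] at h
    obtain ⟨a, ha, hne⟩ := h
    refine Finset.prod_eq_zero (Finset.mem_univ a) ?_
    unfold Apad
    rw [if_neg (not_lt.mpr ha), Matrix.one_apply_ne hne]

theorem circ_valS (s : Fin (ρ + 1) × Fin n × Fin n) :
    (circ K n ρ τ).valS s = Blk (Apad K n) (τ + 1) s.1 s.2.1 s.2.2 := by
  unfold SPSPS.valS Blk
  rw [prod_ofFn_apply]
  simp only [circ_valP, prod_Apad]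
  simp only [circ, Finset.sum_map, one_smul, Function.Embedding.sectR_apply]
  rw [Finset.sum_filter]
  refine Finset.sum_congr rfl fun f _ => ?_
  by_cases h1 : f 0 = s.2.1 ∧ f (Fin.last (τ + 1)) = s.2.2
  · by_cases h2 : ∀ a : Fin (τ + 1), n ≤ s.1 * (τ + 1) + a → f a.castSucc = f a.succ
    · rw [if_pos ⟨h1, h2⟩, if_pos h1, if_pos h2]
    · rw [if_neg (fun h => h2 h.2), if_pos h1, if_neg h2]
  · rw [if_neg (fun h => h1 h.1), if_neg h1]

theorem circ_valR (g : Fin ρ → Fin n) :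
    (circ K n ρ τ).valR g = ∏ c : Fin (ρ + 1),
      Blk (Apad K n) (τ + 1) c (hh n ρ g c.castSucc) (hh n ρ g c.succ) := by
  have h : (circ K n ρ τ).valS = fun s => Blk (Apad K n) (τ + 1) s.1 s.2.1 s.2.2 :=
    funext (circ_valS K n ρ τ)
  unfold SPSPS.valR
  rw [h]
  simp only [circ, Multiset.map_map]
  rfl

theorem imm_eq : imm K n = (List.ofFn (varMatrix K n)).prod 0 0 := by
  cases n with
  | zero => exact absurd rfl (NeZero.ne 0)
  | succ m => rfl

theorem PA_Apad : PA (Apad K n) n = (List.ofFn (varMatrix K n)).prod := by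
  unfold PA
  congr 2
  funext k
  unfold Apad
  rw [if_pos k.2]
  congr 1
  exact Fin.ext (Nat.mod_eq_of_lt k.2)

theorem circ_output (h2 : n ≤ (ρ + 1) * (τ + 1)) : (circ K n ρ τ).output = imm K n := by
  rw [imm_eq, ← PA_Apad, ← PA_of_le (Apad K n) n (fun k hk => if_neg (not_lt.mpr hk)) _ h2, PA_mul,
    prod_ofFn_apply, sum_ends]
  unfold SPSPS.output
  simp only [circ_valR]
  simp [circ, hh]

/-! ### Formal degrees -/

theorem sup_eq_of_const {α : Type*} {s : Finset α} {f : α → ℕ} {d : ℕ} (h : ∀ x ∈ s, f x = d)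
    {x : α} (hx : x ∈ s) : s.sup f = d :=
  le_antisymm (Finset.sup_le fun y hy => (h y hy).le) (h x hx ▸ Finset.le_sup hx)

theorem circ_leafDeg (l : Fin n × Fin n × Fin n) : (circ K n ρ τ).leafDeg l = 1 := rfl

theorem circ_degB (b : Fin n × Fin n × Fin n) : (circ K n ρ τ).degB b = 1 := by
  simp [SPSPS.degB, circ, SPSPS.leafDeg]

theorem circ_degP (p : Fin (ρ + 1) × (Fin (τ + 2) → Fin n)) :
    (circ K n ρ τ).degP p = (realSteps n τ p.1).card := by
  have h : (circ K n ρ τ).degB = fun _ => 1 := funext (circ_degB K n ρ τ)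
  unfold SPSPS.degP
  rw [h]
  simp [circ]

theorem circ_degP_of_mem (s : Fin (ρ + 1) × Fin n × Fin n) (p : Fin (ρ + 1) × (Fin (τ + 2) → Fin n))
    (hp : p ∈ (circ K n ρ τ).inS s) : (circ K n ρ τ).degP p = (realSteps n τ s.1).card := by
  rw [circ_degP]
  simp only [circ, Finset.mem_map, Function.Embedding.sectR_apply] at hp
  obtain ⟨f, _, rfl⟩ := hp
  rfl

theorem circ_inS_nonempty (h1 : ρ * (τ + 1) < n) (s : Fin (ρ + 1) × Fin n × Fin n) :
    ∃ p, p ∈ (circ K n ρ τ).inS s := by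
  refine ⟨(s.1, fun a => if a = 0 then s.2.1 else s.2.2), ?_⟩
  simp only [circ, Finset.mem_map, Function.Embedding.sectR_apply]
  refine ⟨_, ?_, rfl⟩
  rw [Finset.mem_filter]
  refine ⟨Finset.mem_univ _, ⟨if_pos rfl, ?_⟩, ?_⟩
  · exact if_neg (Fin.last_pos.ne')
  · intro a ha
    show (if a.castSucc = 0 then s.2.1 else s.2.2) = if a.succ = 0 then s.2.1 else s.2.2
    rw [if_neg (Fin.succ_ne_zero a)]
    have ha0 : a ≠ 0 := by
      rintro rfl
      have : (s.1 : ℕ) * (τ + 1) ≤ ρ * (τ + 1) := Nat.mul_le_mul_right _ (Nat.lt_succ_iff.mp s.1.2)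
      simp at ha
      omega
    rw [if_neg]
    intro h
    apply ha0
    exact Fin.castSucc_injective _ (by rw [h]; rfl)

theorem circ_degS (h1 : ρ * (τ + 1) < n) (s : Fin (ρ + 1) × Fin n × Fin n) :
    (circ K n ρ τ).degS s = (realSteps n τ s.1).card := by
  obtain ⟨p, hp⟩ := circ_inS_nonempty K n ρ τ h1 s
  exact sup_eq_of_const (circ_degP_of_mem K n ρ τ s) hp

theorem circ_degR (h1 : ρ * (τ + 1) < n) (g : Fin ρ → Fin n) :
    (circ K n ρ τ).degR g = ∑ c : Fin (ρ + 1), (realSteps n τ c).card := by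
  have h : (circ K n ρ τ).degS = fun s => (realSteps n τ s.1).card :=
    funext (circ_degS K n ρ τ h1)
  unfold SPSPS.degR
  rw [h]
  simp only [circ, Multiset.map_map]
  rfl

theorem circ_isHomogeneous (h1 : ρ * (τ + 1) < n) : (circ K n ρ τ).IsHomogeneous := by
  refine ⟨?_, ?_, ?_⟩
  · intro b l _
    rw [circ_leafDeg, circ_degB]
  · intro s p hp
    rw [circ_degP_of_mem K n ρ τ s p hp, circ_degS K n ρ τ h1]
  · intro r hr
    rw [circ_degR K n ρ τ h1]
    exact (sup_eq_of_const (fun x _ => circ_degR K n ρ τ h1 x) hr).symm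

theorem circ_size : (circ K n ρ τ).size =
    2 * n ^ 3 + (ρ + 1) * n ^ 2 + (ρ + 1) * n ^ (τ + 1 + 1) + n ^ ρ + 1 := by
  simp only [SPSPS.size, Fintype.card_prod, Fintype.card_fin, Fintype.card_fun]
  ring

/-- Packaged existence statement, with index types `Fin _`. -/
theorem exists_circuit (h1 : ρ * (τ + 1) < n) (h2 : n ≤ (ρ + 1) * (τ + 1)) :
    ∃ (l b p s r : ℕ)
      (C : SPSPS K (Fin n × Fin n × Fin n) (Fin l) (Fin b) (Fin p) (Fin s) (Fin r)),
      C.IsHomogeneous ∧ C.output = imm K n ∧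
        C.size = 2 * n ^ 3 + (ρ + 1) * n ^ 2 + (ρ + 1) * n ^ (τ + 1 + 1) + n ^ ρ + 1 := by
  obtain ⟨C', hC1, hC2, hC3⟩ := exists_fin (circ K n ρ τ) (circ_isHomogeneous K n ρ τ h1)
  exact ⟨_, _, _, _, _, C', hC1, hC2.trans (circ_output K n ρ τ h2),
    hC3.trans (circ_size K n ρ τ)⟩

end Crest.Agent.IMM5
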