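import Mathlib

/-! Path expansions of products of lists of matrices (helper library for S0505). -/

namespace Crest.Agent.IMM5

open Matrix

variable {R : Type*} [CommSemiring R] {n : ℕ}

/-- Entry of a product of `m` matrices as a sum over all paths with `m + 1` nodes and prescribed ends. -/
theorem prod_ofFn_apply (m : ℕ) (M : Fin m → Matrix (Fin n) (Fin n) R) (i j : Fin n) :
    (List.ofFn M).prod i j =
      ∑ f : Fin (m + 1) → Fin n, if f 0 = i ∧ f (Fin.last m) = j then
        ∏ a : Fin m, M a (f a.castSucc) (f a.succ) else 0 := by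
  induction m generalizing i with
  | zero =>
    rw [← (Equiv.funUnique (Fin 1) (Fin n)).symm.sum_comp]
    simp only [List.ofFn_zero, List.prod_nil, Matrix.one_apply, Finset.univ_eq_empty,
      Finset.prod_empty]
    by_cases h : i = j
    · subst h
      simp [Equiv.funUnique]
    · have : ∀ x : Fin n, ¬ (x = i ∧ x = j) := fun x hx => h (hx.1.symm.trans hx.2)
      simp [Equiv.funUnique, h, this]
  | succ m ih =>
    rw [List.ofFn_succ, List.prod_cons, Matrix.mul_apply,
      ← (Fin.consEquiv (fun _ : Fin (m + 2) => Fin n)).sum_comp, Fintype.sum_prod_type]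
    simp only [Fin.consEquiv_apply, Fin.cons_zero, ← Fin.succ_last, Fin.cons_succ,
      Fin.prod_univ_succ, Fin.castSucc_zero, ← Fin.succ_castSucc]
    symm
    rw [Finset.sum_eq_single i]
    · simp_rw [ih, Finset.mul_sum]
      rw [Finset.sum_comm]
      refine Finset.sum_congr rfl fun f _ => ?_
      rw [Finset.sum_eq_single (f 0)]
      · by_cases h : f (Fin.last m) = j <;> simp [h]
      · intro x _ hx
        have : ¬ (f 0 = x ∧ f (Fin.last m) = j) := fun h => hx h.1.symm
        rw [if_neg this, mul_zero]
      · intro h; exact absurd (Finset.mem_univ _) h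
    · intro y _ hy
      refine Finset.sum_eq_zero fun f _ => ?_
      rw [if_neg (fun h => hy h.1)]
    · intro h; exact absurd (Finset.mem_univ _) h

end Crest.Agent.IMM5
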